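import Vale.Agent.P284.H894.F.DefsA
import Vale.Agent.P284.H427.G10
import Vale.Agent.P284.H446.CYC

/-!
# P284, theorem AE (helper894): bounded psh functions which take countably many values almost everywhere.
Statements of the rows. FROZEN.
-/

open scoped Manifold ContDiff Topology
open Filter Set Metric MeasureTheory

noncomputable section

namespace Vale.Agent.P284.H894.AE

open Vale.Agent.P272.K Vale.Agent.P284.H248 Vale.Agent.P284.H894 Vale.Agent.P284.H894.G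
  Vale.Agent.P284.H894.V Vale.Agent.P284.H894.F Vale.Agent.P284.H446.K Vale.Agent.P284.H409.A

/-- the hypotheses on `w : ℂ → ℝ` in all rows -/
structure Sub (w : ℂ → ℝ) : Prop where
  usc : ∀ z ∈ ball (0 : ℂ) 1, UpperSemicontinuousAt w z
  bdd : ∃ B : ℝ, ∀ z, |w z| ≤ B
  mean : ∀ c ∈ ball (0 : ℂ) 1, ∃ δ > 0, ∀ ρ ∈ Ioo (0 : ℝ) δ, w c ≤ Real.circleAverage w c ρ

/-- **AE1a**: sub-mean inequality on all circles whose disc is contained in the unit disc. Proof: on the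
circle `w ≤ φ` continuous with almost the same mean; `φ ≤ Re P + ε` on the circle, `P` a polynomial
(density of trigonometric polynomials); maximum principle for `w - Re P` on the closed disc. -/
def AE1a : Prop :=
  ∀ w : ℂ → ℝ, Sub w → ∀ (c : ℂ) (ρ : ℝ), 0 < ρ → closedBall c ρ ⊆ ball (0 : ℂ) 1 →
    w c ≤ Real.circleAverage w c ρ

/-- Conclusion of **AE1b**: smooth approximations with bounded energy. -/
def AE1bConcl : Prop :=
  ∀ w : ℂ → ℝ, Sub w → ∀ r : ℝ, 0 < r → r < 1 → ∃ (f : ℕ → ℂ → ℝ) (K : ℝ),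
    (∀ k, ContDiff ℝ 1 (f k)) ∧ (∀ z ∈ ball (0 : ℂ) r, Tendsto (fun k => f k z) atTop (𝓝 (w z))) ∧
    ∀ k, ∫ z in ball (0 : ℂ) r, ‖fderiv ℝ (f k) z‖ ^ 2 ≤ K

/-- **AE1b**: `f k` = convolution of `w` (extended by 0, `w ≥ 0` after adding a constant) with a radial
bump of radius `1 / k`; energy: `∫ η avg_θ |f(z + ρ e^{iθ}) - f(z)|² ≤ ∫ f² (A_ρ η - η) ≤ C ρ²` for
`f ≥ 0` with `f ≤ A_ρ f` (or `Δ(f²) ≥ 2 |∇f|²` and integration by parts). -/
def AE1b : Prop := AE1a → AE1bConcl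

/-- **AE1c**: the real line. Proof: if `|{f ∉ {c₁..c_M}}| ≤ η`, `G` = complement of small closed intervals
around `c₁..c_M`: `|[f_k x, f_k y] ∩ G| ≤ ∫_{f_k ∈ G} |f_k'| ≤ K^{1/2} |{f_k ∈ G}|^{1/2}`
(`addHaar_image_le_lintegral_abs_det_fderiv`), `k → ∞`, `η → 0`. -/
def AE1c : Prop :=
  ∀ (a b K : ℝ), a < b → ∀ (f : ℕ → ℝ → ℝ) (g : ℝ → ℝ), (∀ k, ContDiff ℝ 1 (f k)) →
    (∀ᵐ x ∂(volume.restrict (Ioo a b)), Tendsto (fun k => f k x) atTop (𝓝 (g x))) →
    (∃ᶠ k in atTop, ∫ x in Ioo a b, ‖deriv (f k) x‖ ^ 2 ≤ K) →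
    ∀ C₀ : Set ℝ, C₀.Countable → (∀ᵐ x ∂(volume.restrict (Ioo a b)), g x ∈ C₀) →
    ∃ c : ℝ, ∀ᵐ x ∂(volume.restrict (Ioo a b)), g x = c

/-- Conclusion of **AE1** -/
def AE1Concl : Prop :=
  ∀ w : ℂ → ℝ, Sub w → ∀ C₀ : Set ℝ, C₀.Countable →
    (∀ᵐ z ∂(volume.restrict (ball (0 : ℂ) 1)), w z ∈ C₀) → ∀ z ∈ ball (0 : ℂ) 1, w z = w 0

/-- **AE1d**: Fubini (Fatou for the energy on lines) on squares, then `w` is a.e. equal to a constant on
small discs, hence everywhere (`AE1a`, usc), hence on the unit disc (connected). -/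
def AE1d : Prop := AE1a → AE1bConcl → AE1c → AE1Concl

/-- Conclusion of **AE2** -/
def AE2Concl : Prop :=
  ∀ (n : ℕ) (X : Type) [TopologicalSpace X] [T2Space X] [ChartedSpace (Cm n) X]
    [IsManifold 𝓘(ℂ, Cm n) ω X] (E : Type) [TopologicalSpace E] (p : E → X), IsCoveringMap p →
    ∀ u : E → ℝ, IsPsh (n := n) p u → (∃ B : ℝ, ∀ y, |u y| ≤ B) → ∀ V : Set E, IsOpen V →
    IsPreconnected V → ∀ A : Set X, NullSet n A → ∀ C₀ : Set ℝ, C₀.Countable →
    (∀ y ∈ V, p y ∉ A → u y ∈ C₀) → ∀ y ∈ V, ∀ y' ∈ V, u y = u y'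

/-- **AE2**: as `H427.g11Stmt`; for a.e. direction `b`, a.e. point `c + t b` of the disc is not in `A`
(polar Fubini: for fixed `t ≠ 0` the map `b ↦ c + t b` preserves null sets); so `u = u y` a.e. on a ball, and
everywhere (every point `z` of the ball is the centre of discs, `AE1Concl` for a.e. direction from `z`). -/
def AE2 : Prop := AE1Concl → AE2Concl

/-- Conclusion of **AE3** (as `H446.GI`, `H446.GFi`). -/
def AE3Concl : Prop :=
  ∀ (n : ℕ) (X : Type) [TopologicalSpace X] [T2Space X] [CompactSpace X] [ConnectedSpace X]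
    [ChartedSpace (Cm n) X] [IsManifold 𝓘(ℂ, Cm n) ω X]
    (w : Chart n X → Cm n → Matrix (Fin n) (Fin n) ℂ), IsKahler w →
    ∀ (U Q : Set X) (x : X) (hx : x ∈ U), IsOpen U → Q.Countable →
    NullSet n {y ∈ U | ¬ ∃ q ∈ Q, Chain n X y q} → SubexpGrowth (piImage U x hx)

/-- **AE3** -/
def AE3 : Prop := AE2Concl → AE3Concl

end Vale.Agent.P284.H894.AE
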