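import Vale.Agent.P284.H894.AE.Spec
import Vale.Agent.P284.H894.F.YV

/-! # P284, theorem AE (helper894): consequences -/

open scoped Manifold ContDiff Topology
open Filter Set Metric MeasureTheory Function

noncomputable section

namespace Vale.Agent.P284.H894.AE

open Vale.Agent.P272.K Vale.Agent.P284.H248 Vale.Agent.P284.H894 Vale.Agent.P284.H894.G
  Vale.Agent.P284.H894.V Vale.Agent.P284.H894.F Vale.Agent.P284.H446.K Vale.Agent.P284.H409.A

section
variable {n : ℕ} {X : Type} [TopologicalSpace X] [ChartedSpace (Cm n) X]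

theorem NullSet.mono {A B : Set X} (h : NullSet n B) (hAB : A ⊆ B) : NullSet n A := by
  intro e he
  refine measure_mono_null ?_ (h e he)
  exact image_mono (inter_subset_inter_left _ hAB)

theorem nullSet_empty : NullSet n (∅ : Set X) := by
  intro e he
  simp

/-- an everywhere statement is an almost everywhere statement -/
theorem ae_of_virt {x : X} (h : VirtCurveConnected n X x) : AECurveConnected n x := by
  obtain ⟨U, Q, hx, hU, hfi, hQ, hQU⟩ := h
  refine ⟨U, Q, hx, hU, hfi, hQ, NullSet.mono nullSet_empty ?_⟩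
  rintro y ⟨hy, hn⟩
  exact hn (hQU y hy)

/-- almost every point is in the image of `ℂᴺ` -/
theorem ae_of_range {N : ℕ} {Φ : Cm N → X} (hΦ : ContMDiff 𝓘(ℂ, Cm N) 𝓘(ℂ, Cm n) ω Φ)
    (hs : NullSet n (range Φ)ᶜ) (x : X) : AECurveConnected n x := by
  refine ⟨univ, {Φ 0}, mem_univ _, isOpen_univ, ?_, countable_singleton _,
    NullSet.mono hs ?_⟩
  · rw [piImage_univ]
    infer_instance
  · rintro y ⟨-, hn⟩ ⟨ζ, rfl⟩
    exact hn ⟨Φ 0, rfl, Relation.ReflTransGen.single (onCurve_of_rangeN hΦ ζ)⟩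

variable [T2Space X] [CompactSpace X] [ConnectedSpace X] [IsManifold 𝓘(ℂ, Cm n) ω X]
  {w : Chart n X → Cm n → Matrix (Fin n) (Fin n) ℂ}

theorem growth_ae (h3 : AE3Concl) (hw : IsKahler w) (x : X) (hx : AECurveConnected n x) :
    SubexpGrowth (FundamentalGroup X x) := by
  obtain ⟨U, Q, hx, hU, hfi, hQ, hQU⟩ := hx
  exact subexp_of_fi _ hfi (h3 n X w hw U Q x hx hU hQ hQU)

theorem part6A {N : ℕ} {Φ : Cm N → X} (h3 : AE3Concl) (hw : IsKahler w)
    (hΦ : HasFiniteOrderN w Φ) (x : X) (hx : AECurveConnected n x) :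
    VirtAbelianRank (FundamentalGroup X x) (2 * n) :=
  part2N hw hΦ x _ (MonoidHom.id _) surjective_id (growth_ae h3 hw x hx).folner

theorem part7A {N : ℕ} {Φ : Cm N → X} (h3 : AE3Concl) (hw : IsKahler w)
    (hΦ : HasFiniteOrderN w Φ) (hs : NullSet n (range Φ)ᶜ) (x : X) :
    VirtAbelianRank (FundamentalGroup X x) (2 * n) :=
  part6A h3 hw hΦ x (ae_of_range hΦ.holo hs x)

theorem fin_or_ind_ae (h3 : AE3Concl) (hw : IsKahler w) (hFD : FDAll w) (x : X)
    (hx : AECurveConnected n x) :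
    Finite (FundamentalGroup X x) ∨ VirtIndicable (FundamentalGroup X x) := by
  by_cases hi : Finite (FundamentalGroup X x)
  · exact Or.inl hi
  rw [not_finite_iff_infinite] at hi
  exact Or.inr (va2_pi w hw hFD x hi (growth_ae h3 hw x hx).folner)

end

end Vale.Agent.P284.H894.AE
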