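import Vale.Agent.P284.H894.AE.Asm
import Vale.Agent.P284.H894.F.DefsC
import Vale.Agent.P284.H639.S.Span

/-! # P284 (helper894): finite dimension from many curves -/

open scoped Manifold ContDiff Topology
open Filter Set Metric MeasureTheory Function

noncomputable section

namespace Vale.Agent.P284.H894.AE

open Vale.Agent.P272.K Vale.Agent.P284.H248 Vale.Agent.P284.H894 Vale.Agent.P284.H894.G
  Vale.Agent.P284.H894.V Vale.Agent.P284.H894.F Vale.Agent.P284.H446.K Vale.Agent.P284.H409.A

section
variable {n : ℕ} {X : Type} [TopologicalSpace X] [ChartedSpace (Cm n) X]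
  [T2Space X] [CompactSpace X] [ConnectedSpace X] [IsManifold 𝓘(ℂ, Cm n) ω X]
  {w : Chart n X → Cm n → Matrix (Fin n) (Fin n) ℂ}

theorem fdAll_of_many (hw : IsKahler w) (h : ManyCurves w) : FDAll w := by
  rcases h with ⟨x, h⟩ | h
  · exact fdAll_of_dense hw h
  · intro E _ _ p hp hs
    exact H639.S.fdSpan w hw.toIsHermitian h E p hp hs

end

end Vale.Agent.P284.H894.AE
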