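import Vale.Agent.P284.H894.AE.Asm
import Vale.Agent.P284.H287.AE.AE1aF
import Vale.Agent.P284.H287.AE.AE1cF
import Vale.Agent.P284.H409.AE.AE1d
import Vale.Agent.P284.H446.AE.AE2
import Vale.Agent.P284.H446.AE.AE3
import Vale.Agent.P284.H446.AE.En
import Vale.Agent.P284.H977.AE.AE1b

/-! # P284, theorem AE (helper894): assembly -/

noncomputable section

namespace Vale.Agent.P284.H894.AE

theorem ae1 : AE1Concl :=
  H409.AE.ae1d H287.AE.ae1a (H977.AE.ae1b_of (fun h1 h2 => H446.AE.energy h1 h2) H287.AE.ae1a)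
    H287.AE.ae1c

theorem ae3Concl : AE3Concl := H446.AE.ae3 (H446.AE.ae2 ae1)

end Vale.Agent.P284.H894.AE
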