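import Vale.Agent.P284.H730.StrZ
import Vale.Agent.P284.H639.S.RankSpan

/-! # P284 (helper894): the structure theorem for many curves (assembly) -/

open scoped Manifold ContDiff Topology
open Filter Set Metric Function

noncomputable section

namespace Vale.Agent.P284.H894.AE

open Vale.Agent.P272.K Vale.Agent.P284.H248 Vale.Agent.P284.H894 Vale.Agent.P284.H894.G
  Vale.Agent.P284.H894.V Vale.Agent.P284.H894.W Vale.Agent.P284.H894.F

variable {n : ℕ} {X : Type} [TopologicalSpace X] [T2Space X] [CompactSpace X] [ConnectedSpace X]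
  [ChartedSpace (Cm n) X] [IsManifold 𝓘(ℂ, Cm n) ω X]
  {w : Chart n X → Cm n → Matrix (Fin n) (Fin n) ℂ}

theorem strG (hw : IsKahler w) (h : ManyCurves w) (x : X)
    (hg : SubexpGrowth (FundamentalGroup X x)) :
    AbelianByNonIndicable n (FundamentalGroup X x) := by
  refine H730.Str.strC_of hw h ?_ x hg
  intro E Γ _ _ _ _ p hp G K N F c hA
  rcases h with ⟨x₀, hx₀⟩ | h
  · exact H66.Rk.rankZ hw.toIsHermitian hx₀ hp hA
  · exact H639.S.rankSpan hw.toIsHermitian h E Γ p hp G K N F c hA

end Vale.Agent.P284.H894.AE
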