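import Vale.Agent.P284.H894.AE.TanSpec
import Vale.Agent.P284.H894.AE.Cl
import Vale.Agent.P284.H894.AE.AsmV
import Vale.Agent.P284.H894.AE.StrG

/-! # P284, theorem TAN (helper894): consequences -/

open scoped Manifold ContDiff Topology
open Filter Set Metric MeasureTheory Function

noncomputable section

namespace Vale.Agent.P284.H894.AE

open Vale.Agent.P272.K Vale.Agent.P284.H248 Vale.Agent.P284.H894 Vale.Agent.P284.H894.G
  Vale.Agent.P284.H894.V Vale.Agent.P284.H894.F Vale.Agent.P284.H446.K Vale.Agent.P284.H409.A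

section
variable {n : ℕ} {X : Type} [TopologicalSpace X] [ChartedSpace (Cm n) X]
  {w : Chart n X → Cm n → Matrix (Fin n) (Fin n) ℂ}

/-- the complement of a null set is dense -/
theorem dense_of_null {A : Set X} (h : NullSet n A) : Dense Aᶜ := by
  rw [← interior_eq_empty_iff_dense_compl, eq_empty_iff_forall_notMem]
  intro x hx
  set e : Chart n X := chartAt (Cm n) x
  have h1 := h e (chart_mem_atlas _ _)
  have ho : IsOpen (e '' (interior A ∩ e.source)) := by
    rw [inter_comm]
    exact e.isOpen_image_source_inter isOpen_interior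
  have hne : (e '' (interior A ∩ e.source)).Nonempty :=
    ⟨e x, x, ⟨hx, mem_chart_source _ _⟩, rfl⟩
  refine (ho.measure_pos volume hne).ne' (measure_mono_null ?_ h1)
  exact image_mono (inter_subset_inter_left _ interior_subset)

theorem span_mono (x : X) {ρ : ℝ} :
    {v : Cm n | ∃ f, FiniteOrderCurve w x v ρ f} ⊆ velocities n x := by
  rintro v ⟨f, hf⟩
  exact ⟨f, hf.holo, hf.base, hf.vel⟩

theorem spanned_of_finite (h : AEFiniteOrderSpanned w) (x : X) : AECurveSpanned n x := by
  obtain ⟨ρ, hρ⟩ := h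
  refine ⟨univ, mem_univ _, isOpen_univ, ?_, NullSet.mono hρ ?_⟩
  · rw [piImage_univ]
    infer_instance
  · rintro y ⟨-, hy⟩ h1
    refine hy (top_le_iff.1 ?_)
    rw [← h1]
    exact Submodule.span_mono (span_mono y)

theorem many_of_finite [Nonempty X] (h : AEFiniteOrderSpanned w) : ManyCurves w := by
  obtain ⟨ρ, hρ⟩ := h
  refine Or.inr ⟨ρ, ?_⟩
  have h1 := dense_of_null hρ
  have h2 : {x : X | Submodule.span ℂ {v : Cm n | ∃ f, FiniteOrderCurve w x v ρ f} ≠ ⊤}ᶜ =
      {x : X | Submodule.span ℂ {v : Cm n | ∃ f, FiniteOrderCurve w x v ρ f} = ⊤} := by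
    ext x
    simp
  rw [h2] at h1
  rw [h1.closure_eq, interior_univ]
  exact univ_nonempty

variable [T2Space X] [CompactSpace X] [ConnectedSpace X] [IsManifold 𝓘(ℂ, Cm n) ω X]

theorem growth_tan (hT : TanConcl) (hw : IsKahler w) (x : X) (hx : AECurveSpanned n x) :
    SubexpGrowth (FundamentalGroup X x) := by
  obtain ⟨U, hx, hU, hfi, hn⟩ := hx
  exact subexp_of_fi _ hfi (hT n X w hw U x hx hU hn)

theorem growth_or (hT : TanConcl) (hw : IsKahler w) (x : X)
    (hx : AECurveConnected n x ∨ AECurveSpanned n x) : SubexpGrowth (FundamentalGroup X x) :=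
  hx.elim (growth_ae ae3Concl hw x) (growth_tan hT hw x)

theorem part6T {N : ℕ} {Φ : Cm N → X} (hT : TanConcl) (hw : IsKahler w)
    (hΦ : HasFiniteOrderN w Φ) (x : X) (hx : AECurveConnected n x ∨ AECurveSpanned n x) :
    VirtAbelianRank (FundamentalGroup X x) (2 * n) :=
  part2N hw hΦ x _ (MonoidHom.id _) surjective_id (growth_or hT hw x hx).folner

theorem fin_or_ind_of_growth (hw : IsKahler w) (hFD : FDAll w) (x : X)
    (hx : SubexpGrowth (FundamentalGroup X x)) :
    Finite (FundamentalGroup X x) ∨ VirtIndicable (FundamentalGroup X x) := by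
  by_cases hi : Finite (FundamentalGroup X x)
  · exact Or.inl hi
  rw [not_finite_iff_infinite] at hi
  exact Or.inr (va2_pi w hw hFD x hi hx.folner)

theorem str_tan (hT : TanConcl) (hw : IsKahler w) (h : ManyCurves w) (x : X)
    (hx : AECurveConnected n x ∨ AECurveSpanned n x) :
    (Finite (FundamentalGroup X x) ∨ VirtIndicable (FundamentalGroup X x)) ∧
      AbelianByNonIndicable n (FundamentalGroup X x) :=
  ⟨fin_or_ind_of_growth hw (fdAll_of_many hw h) x (growth_or hT hw x hx),
    strG hw h x (growth_or hT hw x hx)⟩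

theorem str_spanned (hT : TanConcl) (hw : IsKahler w) (h : AEFiniteOrderSpanned w) (x : X) :
    (Finite (FundamentalGroup X x) ∨ VirtIndicable (FundamentalGroup X x)) ∧
      AbelianByNonIndicable n (FundamentalGroup X x) :=
  str_tan hT hw (many_of_finite h) x (Or.inr (spanned_of_finite h x))

end

end Vale.Agent.P284.H894.AE
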