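import Vale.Agent.P284.H894.AE.AsmT
import Vale.Agent.P284.H5.TAN.Cl

/-! # P284, theorem TAN (helper894): closing -/

noncomputable section

namespace Vale.Agent.P284.H894.AE

theorem tanConcl : Vale.Agent.P284.H894.F.TanConcl := H5.TAN.tanConcl

end Vale.Agent.P284.H894.AE
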