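import Vale.Agent.P284.H894.F.DefsT
import Vale.Agent.P284.H894.AE.Spec

/-! # P284: literal of theorem TAN (helper731, helper894). FROZEN. -/

open scoped Manifold ContDiff

noncomputable section

namespace Vale.Agent.P284.H894.F

open Vale.Agent.P272.K Vale.Agent.P284.H894.G Vale.Agent.P284.H248

/-- The conclusion of theorem TAN (helper731). -/
def TanConcl : Prop :=
  ∀ (n : ℕ) (X : Type) [TopologicalSpace X] [T2Space X] [CompactSpace X] [ConnectedSpace X]
    [ChartedSpace (Cm n) X] [IsManifold 𝓘(ℂ, Cm n) ω X]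
    (w : Chart n X → Cm n → Matrix (Fin n) (Fin n) ℂ), IsKahler w →
    ∀ (U : Set X) (x : X) (hx : x ∈ U), IsOpen U →
    NullSet n {y ∈ U | Submodule.span ℂ (velocities n y) ≠ ⊤} → SubexpGrowth (piImage U x hx)

end Vale.Agent.P284.H894.F
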